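import Mathlib

/-!
# P253Z, T2: entire functions of polynomial growth are polynomials
-/

open scoped Topology
open Set Metric Filter

noncomputable section

namespace Vale.Agent.P253Z.T2.Liou

/-- one variable -/
theorem one (N : ℕ) : ∀ (g : ℂ → ℂ) (C : ℝ), Differentiable ℂ g →
    (∀ z, ‖g z‖ ≤ C * (1 + ‖z‖) ^ N) → ∃ p : Polynomial ℂ, p.natDegree ≤ N ∧ ∀ z, g z = p.eval z := by
  induction N with
  | zero =>
    intro g C hg hb
    refine ⟨Polynomial.C (g 0), by simp, fun z => ?_⟩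
    rw [Polynomial.eval_C]
    refine hg.apply_eq_apply_of_bounded ?_ z 0
    refine (isBounded_closedBall (x := (0 : ℂ)) (r := C)).subset ?_
    rintro _ ⟨w, rfl⟩
    simpa using hb w
  | succ N ih =>
    intro g C hg hb
    have hd : Differentiable ℂ (dslope g 0) := by
      rw [← differentiableOn_univ, Complex.differentiableOn_dslope univ_mem]
      exact hg.differentiableOn
    obtain ⟨B, hB⟩ := (isCompact_closedBall (0 : ℂ) 1).exists_bound_of_continuousOn
      hd.continuous.continuousOn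
    have hC : 0 ≤ C := by
      have := (norm_nonneg _).trans (hb 0)
      simpa using this
    have hB0 : 0 ≤ B := (norm_nonneg _).trans (hB 0 (mem_closedBall_self zero_le_one))
    have hz : ∀ z, g z = g 0 + z * dslope g 0 z := by
      intro z
      have := sub_smul_dslope g 0 z
      rw [sub_zero, smul_eq_mul] at this
      rw [this]; ring
    obtain ⟨p, hp, hq⟩ := ih (dslope g 0) (B + 4 * C) hd (fun z => by
      have h1 : (1 : ℝ) ≤ (1 + ‖z‖) ^ N := one_le_pow₀ (by linarith [norm_nonneg z])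
      by_cases h : ‖z‖ ≤ 1
      · have := hB z (by simpa using h)
        nlinarith
      · push Not at h
        have h2 : ‖z‖ * ‖dslope g 0 z‖ ≤ ‖g z‖ + ‖g 0‖ := by
          rw [← norm_mul, show z * dslope g 0 z = g z - g 0 by rw [hz z]; ring]
          exact norm_sub_le _ _
        have h3 := hb z
        have h4 := hb 0
        rw [norm_zero, add_zero, one_pow, mul_one] at h4
        rw [pow_succ] at h3
        have h5 : C * ((1 + ‖z‖) ^ N * (1 + ‖z‖)) ≤ ‖z‖ * (2 * C * (1 + ‖z‖) ^ N) := by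
          have : 0 ≤ C * (1 + ‖z‖) ^ N * (‖z‖ - 1) := by
            have : 0 ≤ ‖z‖ - 1 := by linarith
            positivity
          nlinarith
        have h6 : C ≤ ‖z‖ * (2 * C * (1 + ‖z‖) ^ N) := by
          have : C * 1 ≤ C * (1 + ‖z‖) ^ N := mul_le_mul_of_nonneg_left h1 hC
          have h7 : 0 ≤ C * (1 + ‖z‖) ^ N := by positivity
          nlinarith
        have h8 : ‖z‖ * ‖dslope g 0 z‖ ≤ ‖z‖ * (4 * C * (1 + ‖z‖) ^ N) := by linarith
        have h9 := le_of_mul_le_mul_left h8 (by linarith)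
        have : 0 ≤ B * (1 + ‖z‖) ^ N := by positivity
        nlinarith)
    refine ⟨Polynomial.C (g 0) + Polynomial.X * p, ?_, fun z => ?_⟩
    · refine (Polynomial.natDegree_add_le _ _).trans (max_le (by simp) ?_)
      refine Polynomial.natDegree_mul_le.trans ?_
      have := Polynomial.natDegree_X_le (R := ℂ)
      omega
    · rw [hz z, hq z]; simp

/-- interpolation at the nodes `0, …, N` -/
theorem nodes (N : ℕ) : ∃ b : Fin (N + 1) → Polynomial ℂ, ∀ p : Polynomial ℂ, p.natDegree ≤ N →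
    ∀ t, p.eval t = ∑ j : Fin (N + 1), p.eval ((j : ℕ) : ℂ) * (b j).eval t := by
  refine ⟨fun j => Lagrange.basis Finset.univ (fun j : Fin (N + 1) => ((j : ℕ) : ℂ)) j,
    fun p hp t => ?_⟩
  have hi : Set.InjOn (fun j : Fin (N + 1) => ((j : ℕ) : ℂ)) (Finset.univ : Finset (Fin (N + 1))) :=
    fun a _ b _ h => Fin.ext (Nat.cast_injective (R := ℂ) h)
  have hd : p.degree < (Finset.univ : Finset (Fin (N + 1))).card := by
    rw [Finset.card_univ, Fintype.card_fin]
    refine Polynomial.degree_le_natDegree.trans_lt ?_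
    exact_mod_cast Nat.lt_succ_of_le hp
  conv_lhs => rw [Lagrange.eq_interpolate hi hd]
  rw [Lagrange.interpolate_apply, Polynomial.eval_finsetSum]
  simp

/-- several variables -/
theorem many (N n : ℕ) : ∀ (g : (Fin n → ℂ) → ℂ) (C : ℝ), Differentiable ℂ g →
    (∀ z, ‖g z‖ ≤ C * (1 + ‖z‖) ^ N) →
    ∃ R : MvPolynomial (Fin n) ℂ, ∀ z, g z = MvPolynomial.eval z R := by
  induction n with
  | zero =>
    intro g C _ _
    exact ⟨MvPolynomial.C (g 0), fun z => by rw [MvPolynomial.eval_C, Subsingleton.elim z 0]⟩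
  | succ n ih =>
    intro g C hg hb
    have hC : 0 ≤ C := by
      have := (norm_nonneg _).trans (hb 0)
      simpa using this
    have hn : ∀ (t : ℂ) (w : Fin n → ℂ),
        1 + ‖(Fin.cons t w : Fin (n + 1) → ℂ)‖ ≤ (1 + ‖t‖) * (1 + ‖w‖) := by
      intro t w
      have : ‖(Fin.cons t w : Fin (n + 1) → ℂ)‖ ≤ ‖t‖ + ‖w‖ := by
        refine (pi_norm_le_iff_of_nonneg (by positivity)).2 fun i => ?_
        refine Fin.cases ?_ (fun j => ?_) i
        · simp
        · simpa using (norm_le_pi_norm w j).trans (le_add_of_nonneg_left (norm_nonneg t))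
      nlinarith [norm_nonneg t, norm_nonneg w, mul_nonneg (norm_nonneg t) (norm_nonneg w)]
    have hb' : ∀ (t : ℂ) (w : Fin n → ℂ),
        ‖g (Fin.cons t w)‖ ≤ C * ((1 + ‖t‖) ^ N * (1 + ‖w‖) ^ N) := by
      intro t w
      refine (hb _).trans (mul_le_mul_of_nonneg_left ?_ hC)
      rw [← mul_pow]
      exact pow_le_pow_left₀ (by positivity) (hn t w) N
    have h1 : ∀ t : ℂ, Differentiable ℂ fun w : Fin n → ℂ => g (Fin.cons t w) := by
      intro t
      refine hg.comp (differentiable_pi.2 fun i => ?_)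
      refine Fin.cases ?_ (fun j => ?_) i
      · simp
      · simpa using differentiable_apply j
    have h2 : ∀ w : Fin n → ℂ, Differentiable ℂ fun t : ℂ => g (Fin.cons t w) := by
      intro w
      refine hg.comp (differentiable_pi.2 fun i => ?_)
      refine Fin.cases ?_ (fun j => ?_) i
      · simp
      · simp
    choose R hR using fun t : ℂ => ih _ (C * (1 + ‖t‖) ^ N) (h1 t)
      (fun w => by rw [mul_assoc]; exact hb' t w)
    obtain ⟨b, hbb⟩ := nodes N
    refine ⟨∑ j : Fin (N + 1), MvPolynomial.rename Fin.succ (R ((j : ℕ) : ℂ)) *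
      Polynomial.aeval (MvPolynomial.X 0 : MvPolynomial (Fin (n + 1)) ℂ) (b j), fun z => ?_⟩
    obtain ⟨p, hp, hq⟩ := one N _ (C * (1 + ‖Fin.tail z‖) ^ N) (h2 (Fin.tail z))
      (fun t => by rw [mul_assoc, mul_comm ((1 + ‖Fin.tail z‖) ^ N)]; exact hb' t _)
    have h3 := hq (z 0)
    rw [Fin.cons_self_tail, hbb p hp] at h3
    rw [h3, map_sum]
    refine Finset.sum_congr rfl fun j _ => ?_
    rw [map_mul, MvPolynomial.eval_rename, ← hq, hR]
    congr 1
    rw [← MvPolynomial.coe_aeval_eq_eval, RingHom.coe_coe, ← Polynomial.aeval_algHom_apply]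
    simp

/-- the function `Q² f`, extended by zero, is differentiable -/
theorem ext {n : ℕ} (Q : MvPolynomial (Fin n) ℂ) (f : (Fin n → ℂ) → ℂ) (C : ℝ) (N : ℕ)
    (hf : AnalyticOnNhd ℂ f {z | MvPolynomial.eval z Q ≠ 0})
    (hb : ∀ z, MvPolynomial.eval z Q ≠ 0 → ‖f z‖ ≤ C * (1 + ‖z‖) ^ N) :
    Differentiable ℂ fun z => MvPolynomial.eval z Q ^ 2 * f z := by
  intro a
  have hQ : AnalyticAt ℂ (fun z : Fin n → ℂ => MvPolynomial.eval z Q) a :=
    AnalyticOnNhd.eval_mvPolynomial Q a (mem_univ a)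
  by_cases h : MvPolynomial.eval a Q = 0
  · refine (hasFDerivAt_iff_isLittleO.2 ?_ : HasFDerivAt _ (0 : (Fin n → ℂ) →L[ℂ] ℂ) a).differentiableAt
    have h1 : (fun z : Fin n → ℂ => MvPolynomial.eval z Q) =O[𝓝 a] fun z => z - a := by
      simpa [h] using hQ.differentiableAt.isBigO_sub
    have h2 : (fun z : Fin n → ℂ => MvPolynomial.eval z Q * f z) =o[𝓝 a] fun _ => (1 : ℂ) := by
      rw [Asymptotics.isLittleO_one_iff, tendsto_zero_iff_norm_tendsto_zero]
      have h3 : Tendsto (fun z : Fin n → ℂ => ‖MvPolynomial.eval z Q‖ * (|C| * (1 + ‖z‖) ^ N))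
          (𝓝 a) (𝓝 0) := by
        have h4 : ContinuousAt
            (fun z : Fin n → ℂ => ‖MvPolynomial.eval z Q‖ * (|C| * (1 + ‖z‖) ^ N)) a :=
          hQ.continuousAt.norm.mul (by fun_prop)
        simpa [h] using h4.tendsto
      refine squeeze_zero (fun _ => norm_nonneg _) (fun z => ?_) h3
      rw [norm_mul]
      by_cases hz : MvPolynomial.eval z Q = 0
      · simp [hz]
      · refine mul_le_mul_of_nonneg_left ((hb z hz).trans ?_) (norm_nonneg _)
        exact mul_le_mul_of_nonneg_right (le_abs_self C) (by positivity)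
    have h5 := h1.norm_right.mul_isLittleO h2.norm_right
    simp only [norm_one, mul_one, Asymptotics.isLittleO_norm_right] at h5
    refine h5.congr_left fun z => ?_
    simp [h]
    ring
  · exact ((hQ.pow 2).mul (hf a h)).differentiableAt

/-- polynomials have polynomial growth -/
theorem grow {n : ℕ} (Q : MvPolynomial (Fin n) ℂ) :
    ∃ (C : ℝ) (N : ℕ), 0 ≤ C ∧ ∀ z : Fin n → ℂ, ‖MvPolynomial.eval z Q‖ ≤ C * (1 + ‖z‖) ^ N := by
  induction Q using MvPolynomial.induction_on with
  | C a => exact ⟨‖a‖, 0, norm_nonneg _, fun z => by simp⟩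
  | add p q hp hq =>
    obtain ⟨C, N, hC, h⟩ := hp
    obtain ⟨C', N', hC', h'⟩ := hq
    refine ⟨C + C', N + N', by positivity, fun z => ?_⟩
    have h1 : (1 : ℝ) ≤ 1 + ‖z‖ := by linarith [norm_nonneg z]
    rw [map_add, add_mul]
    refine (norm_add_le _ _).trans (add_le_add ((h z).trans ?_) ((h' z).trans ?_))
    · exact mul_le_mul_of_nonneg_left (pow_le_pow_right₀ h1 (by omega)) hC
    · exact mul_le_mul_of_nonneg_left (pow_le_pow_right₀ h1 (by omega)) hC'
  | mul_X p i hp =>
    obtain ⟨C, N, hC, h⟩ := hp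
    refine ⟨C, N + 1, hC, fun z => ?_⟩
    rw [map_mul, MvPolynomial.eval_X, norm_mul, pow_succ, ← mul_assoc]
    exact mul_le_mul (h z) ((norm_le_pi_norm z i).trans (by linarith)) (norm_nonneg _)
      (by positivity)

theorem main {n : ℕ} (Q : MvPolynomial (Fin n) ℂ) (f : (Fin n → ℂ) → ℂ) (C : ℝ) (N : ℕ)
    (hf : AnalyticOnNhd ℂ f {z | MvPolynomial.eval z Q ≠ 0})
    (hb : ∀ z, MvPolynomial.eval z Q ≠ 0 → ‖f z‖ ≤ C * (1 + ‖z‖) ^ N) :
    ∃ R : MvPolynomial (Fin n) ℂ, ∀ z, MvPolynomial.eval z Q ^ 2 * f z = MvPolynomial.eval z R := by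
  obtain ⟨C', N', hC', h⟩ := grow Q
  refine many (N' * 2 + N) n _ (C' ^ 2 * |C|) (ext Q f C N hf hb) fun z => ?_
  by_cases hz : MvPolynomial.eval z Q = 0
  · simp only [hz, ne_eq, OfNat.ofNat_ne_zero, not_false_eq_true, zero_pow, zero_mul, norm_zero]
    positivity
  · rw [norm_mul, norm_pow, pow_add, pow_mul, mul_mul_mul_comm, ← mul_pow]
    refine mul_le_mul (pow_le_pow_left₀ (norm_nonneg _) (h z) 2) ((hb z hz).trans ?_)
      (norm_nonneg _) (by positivity)
    exact mul_le_mul_of_nonneg_right (le_abs_self C) (by positivity)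

end Vale.Agent.P253Z.T2.Liou
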